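import Vale.Agent.P277Z.Oka.All

/-!
# P277, block LUF: the rings of germs are factorial; coprime germs; reduced equations
-/

open Filter Topology Polynomial
open Vale.Agent.P298.H941

noncomputable section

namespace Vale.Agent.P277Z.Luf

open Oka Oka.Wa

section step

variable {Y : Type} [NormedAddCommGroup Y] [NormedSpace ℂ Y]

theorem prime_ev {Q : (O Y)[X]} (hQ : Dist Q) (h : Prime Q) : Prime (ev Y 0 Q) := by
  refine ⟨fun e => h.ne_zero (inj0 (e.trans (map_zero _).symm)), fun ⟨u, hu⟩ => h.not_isUnit ?_,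
    fun a b ⟨c, hc⟩ => ?_⟩
  · exact .of_mul_eq_one _ (dvd_of hQ (R := 1) (v := (u⁻¹ : _ˣ))
      (by rw [map_one, ← hu, Units.inv_mul])).1.symm
  · obtain ⟨v, R, e, -⟩ := div0 hQ.1 a
    obtain ⟨v', R', e', -⟩ := div0 hQ.1 b
    have k := (dvd_of hQ (R := R * R')
      (v := c - v * v' * ev Y 0 Q - v * ev Y 0 R' - v' * ev Y 0 R) (by
        rw [map_mul]; rw [e, e'] at hc; linear_combination hc)).1
    rcases h.dvd_or_dvd ⟨_, k⟩ with k | k
    · exact .inl (e ▸ dvd_add (dvd_mul_left _ _) (map_dvd _ k))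
    · exact .inr (e' ▸ dvd_add (dvd_mul_left _ _) (map_dvd _ k))

theorem dist_of_dvd {P Q : (O Y)[X]} (hP : Dist P) (hQ : Q.Monic) (h : Q ∣ P) : Dist Q := by
  obtain ⟨i, -, hi⟩ := (dvd_prime_pow prime_X _).1
    (hP.2 ▸ Polynomial.map_dvd (ev0 Y : O Y →+* ℂ) h)
  have e := eq_of_monic_of_associated (hQ.map _) (monic_X_pow i) hi
  refine ⟨hQ, ?_⟩
  rw [← hQ.natDegree_map (ev0 Y : O Y →+* ℂ), e, natDegree_X_pow]

theorem prime_reg [FiniteDimensional ℂ Y] [UniqueFactorizationMonoid (O Y)] {f : ℂ × Y → ℂ}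
    (hf : AnalyticAt ℂ f 0) (h : Reg f) (hi : Irreducible (gm 0 f)) : Prime (gm 0 f) := by
  obtain ⟨P, v, hP, hv, e⟩ := prep hf h
  obtain ⟨Q, hQ, hd⟩ := WfDvdMonoid.exists_irreducible_factor (a := P)
    (fun k => hi.not_isUnit (isUnit_of_mul_isUnit_left (e ▸ k.map _))) hP.1.ne_zero
  obtain ⟨u, hu⟩ := hP.1.isUnit_leadingCoeff_of_dvd hd
  have ha : Associated Q (Q * C ((u⁻¹ : _ˣ) : O Y)) :=
    associated_mul_unit_right _ _ (isUnit_C.2 (Units.isUnit _))
  have hp := prime_ev (dist_of_dvd hP (monic_mul_C_of_leadingCoeff_mul_eq_one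
    (by rw [← hu, Units.mul_inv])) (ha.symm.dvd.trans hd)) (ha.prime hQ.prime)
  have k : ev Y 0 (Q * C ((u⁻¹ : _ˣ) : O Y)) ∣ gm 0 f :=
    hv.dvd_mul_right.1 (e ▸ map_dvd _ (ha.symm.dvd.trans hd))
  exact (hp.irreducible.associated_of_dvd hi k).prime hp

end step

variable {E : Type} [NormedAddCommGroup E] [NormedSpace ℂ E]
variable {E' : Type} [NormedAddCommGroup E'] [NormedSpace ℂ E']

/-- linear changes of coordinates -/
def affE (L : E' ≃L[ℂ] E) : O E ≃+* O E' where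
  toFun := pull (aff 0 L) (ana_aff 0 L 0) (aff_zero 0 L)
  invFun := pull (affi 0 L) (ana_affi 0 L 0) (affi_self 0 L)
  left_inv a := by
    obtain ⟨f, hf, rfl⟩ := exists_rep a
    exact mk_congr _ _ (.of_forall fun y => congrArg f (aff_affi 0 L y))
  right_inv a := by
    obtain ⟨f, hf, rfl⟩ := exists_rep a
    exact mk_congr _ _ (.of_forall fun y => congrArg f (affi_aff 0 L y))
  map_mul' := map_mul _
  map_add' := map_add _

theorem ufd_all : All fun E _ _ => UniqueFactorizationMonoid (O E) := by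
  refine Nug.ind fun E _ _ _ ih => ?_
  have := noe E
  refine { irreducible_iff_prime := ⟨fun hi => ?_, Prime.irreducible⟩ }
  rename_i a
  obtain ⟨f, hf, rfl⟩ := gm_surj 0 a
  obtain ⟨q, L, hq, hr⟩ := exists_reg hf (not_not.1 (mt (isUnit_gm hf).2 hi.not_isUnit))
    (mt (gm_eq_zero hf).2 hi.ne_zero)
  have := ih q hq
  have hf' : AnalyticAt ℂ (fun w => f (aff 0 L w)) 0 :=
    hf.comp_of_eq (ana_aff 0 L 0) (aff_zero 0 L)
  have e : affE L (gm 0 f) = gm 0 fun w => f (aff 0 L w) := by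
    rw [gm_zero_eq hf, gm_zero_eq hf']; rfl
  rw [← MulEquiv.prime_iff (affE L), e]
  exact prime_reg hf' hr (e ▸ (MulEquiv.irreducible_iff (affE L)).2 hi)

instance ufd [FiniteDimensional ℂ E] : UniqueFactorizationMonoid (O E) := ufd_all E

instance noeth [FiniteDimensional ℂ E] : IsNoetherianRing (O E) := noe E

variable {x : E} {a b : E → ℂ}

/-- divisibility in terms of functions -/
theorem dvd_iff (ha : AnalyticAt ℂ a x) (hb : AnalyticAt ℂ b x) :
    gm x a ∣ gm x b ↔ ∃ c, AnalyticAt ℂ c x ∧ ∀ᶠ y in 𝓝 x, b y = c y * a y := by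
  refine ⟨fun ⟨c, e⟩ => ?_, fun ⟨c, hc, e⟩ => ⟨gm x c, ?_⟩⟩
  · obtain ⟨c, hc, rfl⟩ := gm_surj x c
    exact ⟨c, hc, (gm_eq_iff hb (hc.fun_mul ha)).1 (by rw [gm_mul hc ha, e, mul_comm])⟩
  · rw [gm_congr hb e, gm_mul hc ha, mul_comm]

theorem in_one : In x (fun _ : Unit => a) b ↔
    ∃ c, AnalyticAt ℂ c x ∧ ∀ᶠ y in 𝓝 x, b y = c y * a y :=
  ⟨fun ⟨c, h, e⟩ => ⟨c (), h (), by simpa using e⟩,
    fun ⟨c, h, e⟩ => ⟨fun _ => c, fun _ => h, by simpa using e⟩⟩

theorem in_one' (ha : AnalyticAt ℂ a x) (hb : AnalyticAt ℂ b x) :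
    In x (fun _ : Unit => a) b ↔ gm x a ∣ gm x b := in_one.trans (dvd_iff ha hb).symm

variable [FiniteDimensional ℂ E]

/-- coprime germs stay coprime -/
theorem cop_near (ha : AnalyticAt ℂ a x) (hb : AnalyticAt ℂ b x)
    (h : IsRelPrime (gm x b) (gm x a)) : ∀ᶠ y in 𝓝 x, ∀ c, AnalyticAt ℂ c y →
      In y (fun _ : Unit => b) (fun z => c z * a z) → In y (fun _ : Unit => b) c := by
  obtain ⟨m, r, hr, h1, h2⟩ := col_all E Unit x (fun _ => b) a (fun _ => hb) ha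
  have h3 : ∀ l, In x (fun _ : Unit => b) (r l) := fun l => (in_one' hb (hr l)).2
    (h.dvd_of_dvd_mul_right (by
      rw [← gm_mul (hr l) ha]; exact (in_one' hb ((hr l).fun_mul ha)).1 (h1 l)))
  filter_upwards [h2, eventually_all.2 fun l => (h3 l).eventually] with y k1 k2 c hc k
    using (k1 c hc k).trans k2

/-- greatest common divisors -/
theorem gcd_near (ha : AnalyticAt ℂ a x) (hb : AnalyticAt ℂ b x) (h : ¬ ∀ᶠ y in 𝓝 x, b y = 0) :
    ∃ d a' b' : E → ℂ, AnalyticAt ℂ d x ∧ AnalyticAt ℂ a' x ∧ AnalyticAt ℂ b' x ∧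
      ∀ᶠ y in 𝓝 x, a y = d y * a' y ∧ b y = d y * b' y ∧ ∀ c, AnalyticAt ℂ c y →
        In y (fun _ : Unit => b') (fun z => c z * a' z) → In y (fun _ : Unit => b') c := by
  obtain ⟨b', a', d, hc, e1, e2⟩ := UniqueFactorizationMonoid.exists_reduced_factors (gm x b)
    (mt (gm_eq_zero hb).1 h) (gm x a)
  obtain ⟨a', ha', rfl⟩ := gm_surj x a'
  obtain ⟨b', hb', rfl⟩ := gm_surj x b'
  obtain ⟨d, hd, rfl⟩ := gm_surj x d
  rw [← gm_mul hd hb', eq_comm, gm_eq_iff hb (hd.fun_mul hb')] at e1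
  rw [← gm_mul hd ha', eq_comm, gm_eq_iff ha (hd.fun_mul ha')] at e2
  exact ⟨d, a', b', hd, ha', hb', e2.and (e1.and (cop_near ha' hb' hc))⟩

/-- a radical germ generates the ideal of its zero set at all nearby points -/
theorem red_of (ha : AnalyticAt ℂ a x) (h : IsRadical (gm x a)) :
    ∀ᶠ y in 𝓝 x, ∀ c, AnalyticAt ℂ c y → (∀ᶠ z in 𝓝 y, a z = 0 → c z = 0) →
      In y (fun _ : Unit => a) c := by
  obtain ⟨m, g, hg, h1, h2⟩ := car_all E Unit x (fun _ => a) fun _ => ha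
  have h3 : ∀ l, In x (fun _ : Unit => a) (g l) := fun l => by
    obtain ⟨N, hN⟩ := nul_all E Unit x (fun _ => a) (fun _ => ha) _ (hg l) (h1 l)
    rw [in_one' ha ((hg l).fun_pow N), gm_pow (hg l)] at hN
    exact (in_one' ha (hg l)).2 (h N _ hN)
  filter_upwards [h2, eventually_all.2 fun l => (h3 l).eventually] with y k1 k2 c hc k
    using (k1 c hc (k.mono fun z hz hz' => hz (hz' ()))).trans k2

/-- reduced equations -/
theorem red_near (ha : AnalyticAt ℂ a x) (h : ¬ ∀ᶠ y in 𝓝 x, a y = 0) :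
    ∃ (r : E → ℂ) (k : ℕ), AnalyticAt ℂ r x ∧ In x (fun _ : Unit => r) a ∧
      In x (fun _ : Unit => a) (fun y => r y ^ k) ∧
      ∀ᶠ y in 𝓝 x, ∀ c, AnalyticAt ℂ c y → (∀ᶠ z in 𝓝 y, r z = 0 → c z = 0) →
        In y (fun _ : Unit => r) c := by
  classical
  let _ : StrongNormalizationMonoid (O E) := UniqueFactorizationMonoid.strongNormalizationMonoid
  have h0 := mt (gm_eq_zero ha).1 h
  obtain ⟨r, hr, e⟩ := gm_surj x (UniqueFactorizationMonoid.radical (gm x a))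
  obtain ⟨k, hk⟩ := UniqueFactorizationMonoid.exists_dvd_radical_self_pow h0
  refine ⟨r, k, hr, (in_one' hr ha).2 (e ▸ UniqueFactorizationMonoid.radical_dvd_self),
    (in_one' ha (hr.fun_pow k)).2 (by rwa [gm_pow hr, e]), red_of hr ?_⟩
  rw [e]
  exact UniqueFactorizationMonoid.isRadical_radical

end Vale.Agent.P277Z.Luf
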