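import Vale.Agent.P277Z.Spec2
import Vale.Agent.P277Z.Luf.Ufd

/-!
# P277, block LUF: holomorphic germs on manifolds
-/

open scoped Manifold ContDiff
open Filter Topology Set
open Vale.Agent.P272.K (Cm Chart At)
open Vale.Agent.P298.H941 (O)

set_option linter.unusedSectionVars false

noncomputable section

namespace Vale.Agent.P277Z

open Oka

variable {W : Type} [TopologicalSpace W]

section gen

variable {x : W} {p : W → Prop} {s : Set W}

theorem gen_le_nhds (x : W) : gen {x} ≤ 𝓝 x := fun _ h => gen_of_nhds h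

theorem gen_le_nhdsSet (s : Set W) : gen s ≤ 𝓝ˢ s := fun T h =>
  ⟨interior T, isOpen_interior, subset_interior_iff_mem_nhdsSet.2 h, subset_closure⟩

theorem gen_iff : (∀ᶠ y in gen s, p y) ↔ ∀ x ∈ s, ∀ᶠ y in gen {x}, p y :=
  ⟨fun h _ hx => h.filter_mono (gen_le_of (by simpa using hx)), fun h =>
    ⟨interior (closure (interior {y | p y})), isOpen_interior, fun x hx =>
      let ⟨_, h1, h2, h3⟩ := h x hx
      interior_maximal h3 h1 (h2 rfl), interior_subset⟩⟩

theorem gen_at (h : ∀ᶠ y in gen s, p y) (hx : x ∈ s) : ∀ᶠ y in gen {x}, p y := gen_iff.1 h x hx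

theorem gen_frequently (h : ∀ᶠ y in gen {x}, p y) : ∃ᶠ y in 𝓝 x, ∀ᶠ z in 𝓝 y, p z := by
  obtain ⟨U, -, h2, h3⟩ := h
  exact (mem_closure_iff_frequently.1 (h3 (h2 rfl))).mono fun y hy =>
    mem_interior_iff_mem_nhds.1 hy

instance gen_neBot (x : W) : (gen {x}).NeBot :=
  ⟨fun h => by
    have k : ∀ᶠ y in gen {x}, False := by rw [h]; exact eventually_bot
    exact (gen_frequently k).exists.elim fun _ h => h.self_of_nhds⟩

theorem gen_of_near (h : ∀ᶠ y in 𝓝 x, ∀ᶠ z in gen {y}, p z) : ∀ᶠ y in gen {x}, p y := by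
  obtain ⟨U, h1, h2, h3⟩ := eventually_nhds_iff.1 h
  exact gen_at (gen_iff.2 h1) h3

theorem gen_nearSet (h : ∀ᶠ y in gen s, p y) : ∀ᶠ y in 𝓝ˢ s, ∀ᶠ z in gen {y}, p z :=
  eventually_nhdsSet_iff_forall.2 fun _ hx => gen_near (gen_at h hx)

/-- an open condition which holds frequently near all points holds generically -/
theorem gen_of_open (h : ∀ᶠ y in 𝓝 x, ∃ᶠ z in 𝓝 y, ∀ᶠ w in 𝓝 z, p w) : ∀ᶠ y in gen {x}, p y := by
  obtain ⟨U, h1, h2, h3⟩ := eventually_nhds_iff.1 h
  exact ⟨U, h2, by simpa using h3, fun y hy => mem_closure_iff_frequently.2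
    ((h1 y hy).mono fun z hz => mem_interior_iff_mem_nhds.2 hz)⟩

theorem eq_of_gen {a b : W → ℂ} (ha : ContinuousAt a x) (hb : ContinuousAt b x)
    (h : ∀ᶠ y in gen {x}, a y = b y) : a x = b x :=
  tendsto_nhds_unique_of_eventuallyEq (ha.tendsto.mono_left (gen_le_nhds x))
    (hb.tendsto.mono_left (gen_le_nhds x)) h

end gen

variable {n : ℕ} [ChartedSpace (Cm n) W] {x : W} {a b c : W → ℂ} {e : Chart n W}

theorem at_chart (x : W) : At (chartAt (Cm n) x) x := ⟨chart_mem_atlas _ _, mem_chart_source _ _⟩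

theorem At.near (he : At e x) : ∀ᶠ y in 𝓝 x, At e y :=
  (e.open_source.eventually_mem he.2).mono fun _ h => ⟨he.1, h⟩

theorem At.tendsto_symm (he : At e x) : Tendsto e.symm (𝓝 (e x)) (𝓝 x) := e.tendsto_symm he.2

theorem At.left (he : At e x) : ∀ᶠ y in 𝓝 x, e.symm (e y) = y := e.eventually_left_inverse he.2

theorem At.right (he : At e x) : ∀ᶠ z in 𝓝 (e x), e (e.symm z) = z :=
  e.eventually_right_inverse' he.2

theorem At.ev (he : At e x) {p : W → Prop} :
    (∀ᶠ z in 𝓝 (e x), p (e.symm z)) ↔ ∀ᶠ y in 𝓝 x, p y :=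
  ⟨fun h => by
    filter_upwards [(e.continuousAt he.2).eventually h, At.left he] with y h1 h2 using h2 ▸ h1,
    fun h => (At.tendsto_symm he).eventually h⟩

theorem hol_const (c : ℂ) (x : W) : Hol n (fun _ => c) x := fun _ _ => analyticAt_const

theorem Hol.add (ha : Hol n a x) (hb : Hol n b x) : Hol n (fun y => a y + b y) x :=
  fun e he => (ha e he).fun_add (hb e he)

theorem Hol.sub (ha : Hol n a x) (hb : Hol n b x) : Hol n (fun y => a y - b y) x :=
  fun e he => (ha e he).fun_sub (hb e he)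

theorem Hol.mul (ha : Hol n a x) (hb : Hol n b x) : Hol n (fun y => a y * b y) x :=
  fun e he => (ha e he).fun_mul (hb e he)

theorem Hol.neg (ha : Hol n a x) : Hol n (fun y => -a y) x := fun e he => (ha e he).fun_neg

theorem Hol.pow (ha : Hol n a x) (k : ℕ) : Hol n (fun y => a y ^ k) x :=
  fun e he => (ha e he).fun_pow k

theorem Hol.inv (ha : Hol n a x) (h : a x ≠ 0) : Hol n (fun y => (a y)⁻¹) x :=
  fun e he => (ha e he).fun_inv (by rwa [e.left_inv he.2])

theorem Hol.div (ha : Hol n a x) (hb : Hol n b x) (h : b x ≠ 0) : Hol n (fun y => a y / b y) x :=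
  fun e he => (ha e he).fun_div (hb e he) (by rwa [e.left_inv he.2])

theorem Hol.zpow (ha : Hol n a x) (h : a x ≠ 0) (k : ℤ) : Hol n (fun y => a y ^ k) x :=
  fun e he => (ha e he).fun_zpow (by rwa [e.left_inv he.2])

theorem Hol.sum {ι : Type*} (s : Finset ι) {f : ι → W → ℂ} (h : ∀ i ∈ s, Hol n (f i) x) :
    Hol n (fun y => ∑ i ∈ s, f i y) x :=
  fun e he => Finset.analyticAt_fun_sum s fun i hi => h i hi e he

theorem Hol.prod {ι : Type*} (s : Finset ι) {f : ι → W → ℂ} (h : ∀ i ∈ s, Hol n (f i) x) :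
    Hol n (fun y => ∏ i ∈ s, f i y) x :=
  fun e he => Finset.analyticAt_fun_prod s fun i hi => h i hi e he

theorem Hol.cont (ha : Hol n a x) : ContinuousAt a x := by
  have he := at_chart (n := n) x
  exact ((ha _ he).continuousAt.comp ((chartAt (Cm n) x).continuousAt he.2)).congr
    ((At.left he).mono fun y hy => congrArg a hy)

theorem Hol.ne_near (ha : Hol n a x) (h : a x ≠ 0) : ∀ᶠ y in 𝓝 x, a y ≠ 0 :=
  ha.cont.eventually_ne h

theorem Dvd.mul_left (h : Dvd n a b x) (hc : Hol n c x) : Dvd n a (fun y => c y * b y) x :=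
  let ⟨d, hd, k⟩ := h
  ⟨_, hc.mul hd, k.mono fun y hy => by simp only [hy, mul_assoc]⟩

theorem Dvd.trans (h : Dvd n a b x) (h' : Dvd n b c x) : Dvd n a c x :=
  let ⟨d, hd, k⟩ := h
  let ⟨d', hd', k'⟩ := h'
  ⟨_, hd'.mul hd, by filter_upwards [k, k'] with y h1 h2 using by rw [h2, h1, mul_assoc]⟩

theorem Dvd.congr (h : Dvd n a b x) (k : ∀ᶠ y in 𝓝 x, b y = c y) : Dvd n a c x :=
  let ⟨d, hd, k'⟩ := h
  ⟨d, hd, by filter_upwards [k, k'] with y h1 h2 using h1 ▸ h2⟩

theorem Dvd.refl (a : W → ℂ) (x : W) : Dvd n a a x :=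
  ⟨_, hol_const 1 x, .of_forall fun _ => (one_mul _).symm⟩

theorem Dvd.of_ne (ha : Hol n a x) (h : a x ≠ 0) (hb : Hol n b x) : Dvd n a b x :=
  ⟨_, hb.div ha h, (ha.ne_near h).mono fun _ hy => (div_mul_cancel₀ _ hy).symm⟩

/-- the germ at `x` in the chart `e` -/
def gW (e : Chart n W) (x : W) (a : W → ℂ) : O (Cm n) := gm (e x) fun z => a (e.symm z)

section gW

variable (he : At e x)
include he

theorem gW_eq_iff (ha : Hol n a x) (hb : Hol n b x) :
    gW e x a = gW e x b ↔ ∀ᶠ y in 𝓝 x, a y = b y :=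
  (gm_eq_iff (ha e he) (hb e he)).trans (At.ev he (p := fun y => a y = b y))

theorem gW_add (ha : Hol n a x) (hb : Hol n b x) :
    gW e x (fun y => a y + b y) = gW e x a + gW e x b := gm_add (ha e he) (hb e he)

theorem gW_sub (ha : Hol n a x) (hb : Hol n b x) :
    gW e x (fun y => a y - b y) = gW e x a - gW e x b := gm_sub (ha e he) (hb e he)

theorem gW_mul (ha : Hol n a x) (hb : Hol n b x) :
    gW e x (fun y => a y * b y) = gW e x a * gW e x b := gm_mul (ha e he) (hb e he)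

theorem gW_pow (ha : Hol n a x) (k : ℕ) : gW e x (fun y => a y ^ k) = gW e x a ^ k :=
  gm_pow (ha e he) k

theorem gW_ne_zero (ha : Hol n a x) : gW e x a ≠ 0 ↔ Nz a x :=
  ((gm_eq_zero (ha e he)).trans (At.ev he (p := fun y => a y = 0))).not

theorem isUnit_gW (ha : Hol n a x) : IsUnit (gW e x a) ↔ a x ≠ 0 := by
  rw [gW, isUnit_gm (ha e he), e.left_inv he.2]

omit he in
theorem gW_const (e : Chart n W) (x : W) (c : ℂ) : gW e x (fun _ => c) = algebraMap ℂ _ c :=
  gm_const _ c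

end gW

variable [IsManifold 𝓘(ℂ, Cm n) ω W]

theorem hol_comp (he : At e x) {f : Cm n → ℂ} (hf : AnalyticAt ℂ f (e x)) :
    Hol n (fun y => f (e y)) x :=
  Hol.of_chart he (hf.congr ((At.right he).mono fun _ h => (congrArg f h).symm))

theorem Hol.eq_of_gen (ha : Hol n a x) (hb : Hol n b x) (h : ∀ᶠ y in gen {x}, a y = b y) :
    ∀ᶠ y in 𝓝 x, a y = b y := by
  filter_upwards [ha.near, hb.near, gen_near h] with y h1 h2 h3
    using P277Z.eq_of_gen h1.cont h2.cont h3

theorem Dvd.near (h : Dvd n a b x) : ∀ᶠ y in 𝓝 x, Dvd n a b y := by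
  obtain ⟨c, hc, k⟩ := h
  filter_upwards [hc.near, k.eventually_nhds] with y h1 h2 using ⟨c, h1, h2⟩

theorem gW_comp (he : At e x) {f : Cm n → ℂ} (hf : AnalyticAt ℂ f (e x)) :
    gW e x (fun y => f (e y)) = gm (e x) f :=
  (gm_congr hf ((At.right he).mono fun _ h => (congrArg f h).symm)).symm

theorem gW_surj (he : At e x) (g : O (Cm n)) : ∃ a, Hol n a x ∧ gW e x a = g :=
  let ⟨_, hf, k⟩ := gm_surj (e x) g
  ⟨_, hol_comp he hf, (gW_comp he hf).trans k⟩

theorem dvd_iff_in (he : At e x) :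
    Dvd n a b x ↔ In (e x) (fun (_ : Unit) z => a (e.symm z)) fun z => b (e.symm z) := by
  rw [Luf.in_one]
  refine ⟨fun ⟨c, hc, k⟩ => ⟨_, hc e he, (At.ev he).2 k⟩, fun ⟨c, hc, k⟩ =>
    ⟨_, hol_comp he hc, (At.ev he).1 ?_⟩⟩
  filter_upwards [k, At.right he] with z h1 h2 using by rw [h1, h2]

theorem gW_dvd (he : At e x) (ha : Hol n a x) (hb : Hol n b x) :
    gW e x a ∣ gW e x b ↔ Dvd n a b x :=
  ((dvd_iff_in he).trans (Luf.in_one' (ha e he) (hb e he))).symm

theorem Nz.near (h : Nz a x) (ha : Hol n a x) : ∀ᶠ y in 𝓝 x, Nz a y := by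
  have he := at_chart (n := n) x
  obtain ⟨r, hr, hb⟩ := Metric.eventually_nhds_iff_ball.1 (ha _ he).eventually_analyticAt
  filter_upwards [At.near he, ((chartAt (Cm n) x).continuousAt he.2).eventually
    (Metric.ball_mem_nhds _ hr)] with y h1 h2 h3
  refine h ((At.ev he).1 ?_)
  filter_upwards [Metric.ball_mem_nhds _ hr] with z hz
  exact AnalyticOnNhd.eqOn_zero_of_preconnected_of_eventuallyEq_zero hb
    (convex_ball _ _).isPreconnected h2 ((At.ev h1 (p := fun y => a y = 0)).2 h3) hz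

theorem Nz.gen (h : Nz a x) (ha : Hol n a x) : ∀ᶠ y in gen {x}, a y ≠ 0 := by
  refine gen_of_open ?_
  filter_upwards [h.near ha, ha.near.eventually_nhds] with y h1 h2
  exact ((not_eventually.1 h1).and_eventually h2).mono fun z hz => hz.2.ne_near hz.1

theorem nz_of_gen (h : ∀ᶠ y in gen {x}, a y ≠ 0) : Nz a x := fun k =>
  let ⟨_, h1, h2⟩ := (h.and (gen_of_nhds k)).exists
  h1 h2

theorem nz_of_ne (h : a x ≠ 0) : Nz a x := fun k => h k.self_of_nhds

theorem Nz.mul (ha : Hol n a x) (hb : Hol n b x) (h : Nz a x) (h' : Nz b x) :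
    Nz (fun y => a y * b y) x :=
  nz_of_gen (by filter_upwards [h.gen ha, h'.gen hb] with y h1 h2 using mul_ne_zero h1 h2)

theorem cop_iff (he : At e x) (ha : Hol n a x) (hb : Hol n b x) (h : Nz b x) :
    Cop n a b x ↔ IsRelPrime (gW e x b) (gW e x a) := by
  refine ⟨fun k d ⟨b', h1⟩ ⟨a', h2⟩ => ?_, fun k c hc k' => ?_⟩
  · obtain ⟨c, hc, rfl⟩ := gW_surj he b'
    obtain ⟨u, hu⟩ := (gW_dvd he hb hc).2 (k c hc ((gW_dvd he hb (hc.mul ha)).1
      ⟨a', by rw [gW_mul he hc ha, h1, h2]; ring⟩))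
    refine .of_mul_eq_one u (mul_left_cancel₀ ((gW_ne_zero he hb).2 h) ?_)
    linear_combination -h1 - d * hu
  · rw [← gW_dvd he hb (hc.mul ha), gW_mul he hc ha] at k'
    exact (gW_dvd he hb hc).1 (k.dvd_of_dvd_mul_right k')

theorem Cop.near (h : Cop n a b x) (ha : Hol n a x) (hb : Hol n b x) (h0 : Nz b x) :
    ∀ᶠ y in 𝓝 x, Cop n a b y := by
  have he := at_chart (n := n) x
  filter_upwards [At.near he, ((chartAt (Cm n) x).continuousAt he.2).eventually
    (Luf.cop_near (ha _ he) (hb _ he) ((cop_iff he ha hb h0).1 h))] with y h1 h2 c hc k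
    using (dvd_iff_in h1).2 (h2 _ (hc _ h1) ((dvd_iff_in h1).1 k))

theorem Cop.symm (h : Cop n a b x) (ha : Hol n a x) (hb : Hol n b x) (h0 : Nz a x) (h1 : Nz b x) :
    Cop n b a x :=
  (cop_iff (at_chart x) hb ha h0).2 ((cop_iff (at_chart x) ha hb h1).1 h).symm

theorem red_near (he : At e x) (ha : Hol n a x) (h : IsRadical (gW e x a)) :
    ∀ᶠ y in 𝓝 x, Red n a y := by
  filter_upwards [At.near he, (e.continuousAt he.2).eventually (Luf.red_of (ha _ he) h)]
    with y h1 h2 c hc k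
    using (dvd_iff_in h1).2 (h2 _ (hc _ h1) ((At.ev h1 (p := fun y => a y = 0 → c y = 0)).2 k))

theorem Red.isRadical (h : Red n a x) (he : At e x) (ha : Hol n a x) : IsRadical (gW e x a) := by
  intro k g hg
  obtain ⟨c, hc, rfl⟩ := gW_surj he g
  rw [← gW_pow he hc, gW_dvd he ha (hc.pow k)] at hg
  obtain ⟨d, -, hd⟩ := hg
  exact (gW_dvd he ha hc).2 (h c hc (hd.mono fun y h1 h2 =>
    eq_zero_of_pow_eq_zero (n := k) (h1.trans (by rw [h2, mul_zero]))))

theorem Red.near (h : Red n a x) (ha : Hol n a x) : ∀ᶠ y in 𝓝 x, Red n a y :=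
  red_near (at_chart x) ha (h.isRadical (at_chart x) ha)

theorem luf : LUF := fun n W _ _ _ x => by
  have he := at_chart (n := n) x
  refine ⟨fun a ha h => h.gen ha, fun u v hu hv h => ?_, fun t ht h => ?_⟩
  · obtain ⟨v', u', d, hc, e1, e2⟩ := UniqueFactorizationMonoid.exists_reduced_factors _
      ((gW_ne_zero he hv).2 h) (gW _ x u)
    obtain ⟨u', hu', rfl⟩ := gW_surj he u'
    obtain ⟨v', hv', rfl⟩ := gW_surj he v'
    obtain ⟨d, hd, rfl⟩ := gW_surj he d
    rw [← gW_mul he hd hv', eq_comm, gW_eq_iff he hv (hd.mul hv')] at e1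
    rw [← gW_mul he hd hu', eq_comm, gW_eq_iff he hu (hd.mul hu')] at e2
    have h0 : Nz v' x := fun k => h (by
      filter_upwards [k, e1] with y h1 h2 using by rw [h2, h1, mul_zero])
    exact ⟨d, u', v', hd, hu', hv',
      e2.and (e1.and (((cop_iff he hu' hv' h0).2 hc).near hu' hv' h0))⟩
  · classical
    let _ : StrongNormalizationMonoid (O (Cm n)) :=
      UniqueFactorizationMonoid.strongNormalizationMonoid
    have h0 := (gW_ne_zero he ht).2 h
    obtain ⟨r, hr, e⟩ := gW_surj he (UniqueFactorizationMonoid.radical (gW _ x t))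
    obtain ⟨k, hk⟩ := UniqueFactorizationMonoid.exists_dvd_radical_self_pow h0
    exact ⟨r, k, hr, (gW_dvd he hr ht).1 (e ▸ UniqueFactorizationMonoid.radical_dvd_self),
      (gW_dvd he ht (hr.pow k)).1 (by rwa [gW_pow he hr, e]),
      red_near he hr (e ▸ UniqueFactorizationMonoid.isRadical_radical)⟩

end Vale.Agent.P277Z
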